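import Vale.Agent.P281.H303.X.Log
import Vale.Agent.P281.H64.Z3.Core

/-!
# P281 (helper303): the input `LogLe` of Towers v3
-/

namespace Vale.Agent.P281.H303.Z3

theorem logLe : H64.Z3.LogLe := fun n p X Y _ _ _ _ f Δ Γ hf h =>
  H303.X.log_le hf h.1 h.2.1 h.2.2

end Vale.Agent.P281.H303.Z3
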